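import Vale.Agent.P096.AT.Scale.Graph

/-!
# P096, algebras of every type: flattened graph vectors

On a gauge the averages of `x*x` and `x x*` are cut down to their central values, so the part of a
scaled graph vector off the nearby space is small relative to the vector itself.
-/

noncomputable section

namespace Vale.Agent.P096.AT.Scale

open scoped InnerProductSpace
open Filter Topology
open Vale.Agent.P132
open Vale.Agent.P096.AT.Averages

universe u

variable {H : Type u} [NormedAddCommGroup H] [InnerProductSpace ℂ H] [CompleteSpace H]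
variable {M N : VonNeumannAlgebra H} {ξ : H} {G : ℕ → Finset (H →L[ℂ] H)}

lemma uGroup_of_balanced {L : ℝ} (hB : Balanced M N ξ G L) (n : ℕ) : UGroup (G n) :=
  ⟨hB.one_mem n, hB.mul_mem n, hB.star_mem n, fun g hg => (hB.mem n g hg).2⟩

lemma sum_norm_sq_proj {ι : Type*} (s : Finset ι) (e : ι → H →L[ℂ] H)
    (he : ∀ i ∈ s, IsStarProjection (e i)) (hsum : ∑ i ∈ s, e i = 1) (v : H) :
    ∑ i ∈ s, ‖e i v‖ ^ 2 = ‖v‖ ^ 2 := by
  have h : ∀ i ∈ s, ‖e i v‖ ^ 2 = (⟪v, e i v⟫_ℂ).re := fun i hi => by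
    have e1 : ⟪v, e i v⟫_ℂ = ⟪e i v, e i v⟫_ℂ := by
      rw [Tomita.inner_sa_left (he i hi).isSelfAdjoint, ← mul_apply_eq_comp,
        (he i hi).isIdempotentElem.eq]
    rw [e1, inner_self_eq_norm_sq_to_K]
    norm_cast
  rw [Finset.sum_congr rfl h, ← Complex.re_sum, ← inner_sum, ← sum_apply, hsum, one_apply_eq_self,
    inner_self_eq_norm_sq_to_K]
  norm_cast

lemma norm_apply_sqrt (x : H →L[ℂ] H) (v : H) :
    ‖CFC.sqrt (star x * x) v‖ = ‖x v‖ := by
  have hs : IsSelfAdjoint (CFC.sqrt (star x * x)) := .of_nonneg (CFC.sqrt_nonneg _)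
  refine (sq_eq_sq₀ (norm_nonneg _) (norm_nonneg _)).1 ?_
  have h1 : ⟪CFC.sqrt (star x * x) v, CFC.sqrt (star x * x) v⟫_ℂ = ⟪x v, x v⟫_ℂ := by
    rw [Tomita.inner_sa_left hs, ← mul_apply_eq_comp,
      CFC.sqrt_mul_sqrt_self _ (star_mul_self_nonneg x), mul_apply_eq_comp,
      ← Tomita.inner_star_left (star x), star_star]
  rw [inner_self_eq_norm_sq_to_K, inner_self_eq_norm_sq_to_K] at h1
  exact_mod_cast h1

/-- Cutting a flattened square: the average of the cut is below the cut of the average. -/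
lemma norm_avg_cut_le {S : Finset (H →L[ℂ] H)} (hS : UGroup S) {p q x z : H →L[ℂ] H}
    (hp : IsStarProjection p) (hq : IsStarProjection q) (hqc : ∀ g ∈ S, g * q = q * g)
    (hz : IsStarProjection z) (hzq : z * q = q * z)
    (hzA : z * avg S (star x * x) = avg S (star x * x) * z)
    (hzA' : z * avg S (star (p * x * q) * (p * x * q)) = avg S (star (p * x * q) * (p * x * q)) * z) :
    ‖z * avg S (star (p * x * q) * (p * x * q))‖ ≤ ‖z * q * avg S (star x * x) * q‖ := by
  set Y := star (p * x * q) * (p * x * q) with hY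
  have hY0 : 0 ≤ Y := star_mul_self_nonneg _
  have hle : Y ≤ q * (star x * x) * q := by
    have hpp : star p * p = p := by rw [hp.isSelfAdjoint.star_eq, hp.isIdempotentElem.eq]
    have e1 : Y = star (x * q) * p * (x * q) := by
      rw [hY, star_mul, star_mul, star_mul]
      calc star q * (star x * star p) * (p * x * q) = star q * star x * (star p * p) * (x * q) := by
            simp only [mul_assoc]
        _ = star q * star x * p * (x * q) := by rw [hpp]
    have e2 : q * (star x * x) * q = star (x * q) * 1 * (x * q) := by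
      rw [star_mul, hq.isSelfAdjoint.star_eq, mul_one]
      simp only [mul_assoc]
    rw [e1, e2]
    exact star_left_conjugate_le_conjugate hp.le_one _
  have havg : ∀ {a b : H →L[ℂ] H}, a ≤ b → avg S a ≤ avg S b := by
    intro a b hab
    have h0 : 0 ≤ avg S (b - a) := by
      have e : avg S (b - a) = ((S.card : ℝ)⁻¹) • ∑ g ∈ S, g * (b - a) * star g := by
        rw [avg, ← Complex.coe_smul, Complex.ofReal_inv, Complex.ofReal_natCast]
      rw [e]
      refine smul_nonneg (by positivity) (Finset.sum_nonneg fun g _ => ?_)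
      exact star_right_conjugate_nonneg (sub_nonneg.2 hab) g
    rwa [avg_sub, sub_nonneg] at h0
  have hA : avg S (q * (star x * x) * q) = q * avg S (star x * x) * q := by
    rw [avg_mul_right hS hqc, avg_mul_left S hqc]
  have hconj : ∀ A, z * A = A * z → z * A = star z * A * z := fun A h => by
    rw [hz.isSelfAdjoint.star_eq, mul_assoc, ← h, ← mul_assoc, hz.isIdempotentElem.eq]
  have hzA2 : z * (q * avg S (star x * x) * q) = q * avg S (star x * x) * q * z := by
    rw [← mul_assoc, ← mul_assoc, hzq, mul_assoc q z, hzA, mul_assoc q, mul_assoc _ z q, hzq]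
    simp only [mul_assoc]
  rw [show z * q * avg S (star x * x) * q = z * (q * avg S (star x * x) * q) by
    simp only [mul_assoc], hconj _ hzA', hconj _ hzA2, ← hA]
  refine CStarAlgebra.norm_le_norm_of_nonneg_of_le ?_
    (star_left_conjugate_le_conjugate (havg hle) z)
  refine star_left_conjugate_nonneg ?_ z
  have h0 := havg hY0
  rwa [show avg S (0 : H →L[ℂ] H) = 0 by simp [avg]] at h0

variable {J : H →L⋆[ℂ] H} {d : ℝ}

/-- The part of a graph vector off the nearby space, relative to the vector. -/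
theorem norm_offPart_le_graphMap (hJ : IsConj J) (hB : Balanced M N ξ G 1)
    (hGN : ∀ n, ∀ g ∈ G n, g ∈ N ∧ right M ξ g ∈ N.commutant) (hd : 0 ≤ d)
    (hMN : MatWithin M N d) {nA nB : ℕ} (hA : 0 < nA) (hBn : 0 < nB) {x : H →L[ℂ] H}
    (hx : x ∈ M) :
    ‖offPart (Real.sqrt (nB : ℝ)⁻¹) (Real.sqrt (nA : ℝ)⁻¹) J ξ N x‖ ≤
      2 * d * ‖graphMap (Real.sqrt (nB : ℝ)⁻¹) (Real.sqrt (nA : ℝ)⁻¹) J ξ x‖ := by
  classical
  set sb := Real.sqrt (nB : ℝ)⁻¹ with hsb
  set sa := Real.sqrt (nA : ℝ)⁻¹ with hsa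
  set b : ℝ := (nB : ℝ)⁻¹ with hb
  set a : ℝ := (nA : ℝ)⁻¹ with ha
  have hb0 : 0 ≤ b := by positivity
  have ha0 : 0 ≤ a := by positivity
  suffices h : ∀ η : ℝ, 0 < η → ‖offPart sb sa J ξ N x‖ ^ 2 ≤
      2 * d ^ 2 * (‖graphMap sb sa J ξ x‖ ^ 2 + (b + a) * η) by
    refine le_of_pow_le_pow_left₀ two_ne_zero (by positivity) ?_
    have hlim : Tendsto (fun η => 2 * d ^ 2 * (‖graphMap sb sa J ξ x‖ ^ 2 + (b + a) * η))
        (𝓝[>] (0 : ℝ)) (𝓝 (2 * d ^ 2 * ‖graphMap sb sa J ξ x‖ ^ 2)) :=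
      tendsto_nhdsWithin_of_tendsto_nhds (Continuous.tendsto' (by fun_prop) _ _ (by ring))
    refine (ge_of_tendsto hlim (eventually_nhdsWithin_of_forall h)).trans ?_
    nlinarith [sq_nonneg (d * ‖graphMap sb sa J ξ x‖)]
  intro η hη
  have hxs : star x ∈ M := star_mem hx
  have ha1 : CFC.sqrt (star x * x) ∈ M := P104.Sim.Amplify.sqrt_mem M (mul_mem hxs hx)
  have ha2 : CFC.sqrt (star (star x) * star x) ∈ M :=
    P104.Sim.Amplify.sqrt_mem M (mul_mem (star_mem hxs) hxs)
  obtain ⟨Z, q, hZ, hZo, hZs, hq, hqt, hqb⟩ :=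
    hB.flat _ ha1 (.of_nonneg (CFC.sqrt_nonneg _)) η hη
  obtain ⟨W, p, hW, hWo, hWs, hp, hpt, hpb⟩ :=
    hB.flat _ ha2 (.of_nonneg (CFC.sqrt_nonneg _)) η hη
  rw [CFC.sqrt_mul_sqrt_self _ (star_mul_self_nonneg _)] at hqb hpb
  simp only [norm_apply_sqrt, one_mul] at hqb hpb
  -- the bound at a stage
  have hstage : ∀ n, ‖offPart sb sa J ξ N (p n * x * q n)‖ ^ 2 ≤
      2 * d ^ 2 * (‖graphMap sb sa J ξ x‖ ^ 2 + (b + a) * η) := by
    intro n
    set x' := p n * x * q n with hx'
    have hx'M : x' ∈ M := mul_mem (mul_mem (hp n).2.1 hx) (hq n).2.1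
    set S := G n
    have hS : UGroup S := uGroup_of_balanced hB n
    have hSM : ∀ g ∈ S, g ∈ M := fun g hg => (hB.mem n g hg).1
    have hk : (0 : ℝ) < S.card := by exact_mod_cast Finset.card_pos.2 ⟨1, hS.one_mem⟩
    -- invariance and the corner inequality on one piece
    have hpiece : ∀ z : H →L[ℂ] H, IsStarProjection z → z ∈ M → z ∈ M.commutant → z ∈ N →
        z ∈ N.commutant → ‖offPart sb sa J ξ N (x' * z)‖ ^ 2 ≤ 2 * d ^ 2 * ‖z ξ‖ ^ 2 *
          (b * ‖z * avg S (star x' * x')‖ + a * ‖z * avg S (x' * star x')‖) := by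
      intro z hzs hzM hzM' hzN hzN'
      have hinv : ∀ g ∈ S, ‖offPart sb sa J ξ N (x' * z)‖ ≤
          ‖offPart sb sa J ξ N (g * x' * star g * z)‖ := by
        intro g hg
        have hgs := hS.star_mem g hg
        have hcξ : right M ξ (star g) ξ = star (star g) ξ := by
          have h2 := congrArg g (hB.fix n _ hgs).2
          rw [← mul_apply_eq_comp g (star g), (hS.unit g hg).2, one_apply_eq_self] at h2
          rw [h2, star_star]
        have hnorm : ∀ v, ‖star g v‖ ≤ ‖v‖ := fun v =>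
          ((star g).le_opNorm v).trans (mul_le_of_le_one_left (norm_nonneg _)
            (by rw [norm_star]; exact norm_le_one_of_iso (hS.unit g hg).1))
        have hcn : ∀ v, ‖right M ξ (star g) v‖ ≤ ‖v‖ := fun v =>
          ((right M ξ (star g)).le_opNorm v).trans (mul_le_of_le_one_left (norm_nonneg _)
            ((norm_Jconj_le hB.csM _).trans
              (by rw [norm_star]; exact norm_le_one_of_iso (hS.unit g hg).1)))
        have h := norm_offPart_conj_le (sb := sb) (sa := sa) hJ (M := M) (N := N)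
          (hGN n _ hgs).1 (hGN n _ hgs).2
          (mul_mem (mul_mem (mul_mem (hSM g hg) hx'M) (star_mem (hSM g hg))) hzM)
          (hB.fix n _ hgs).1 hcξ hnorm hcn
        have e : star g * (g * x' * star g * z) * star (star g) = x' * z := by
          rw [star_star]
          calc star g * (g * x' * star g * z) * g
              = star g * g * x' * (star g * (z * g)) := by simp only [mul_assoc]
            _ = star g * g * x' * (star g * (g * z)) := by
                rw [VonNeumannAlgebra.mem_commutant_iff.1 hzM' g (hSM g hg)]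
            _ = star g * g * x' * (star g * g * z) := by simp only [mul_assoc]
            _ = x' * z := by rw [(hS.unit g hg).1, one_mul, one_mul]
        rwa [e] at h
      let y : S → H →L[ℂ] H := fun g => (g : H →L[ℂ] H) * x' * star (g : H →L[ℂ] H)
      have hc := sum_offPart_le (J := J) (ξ := ξ) hJ hd hMN hA hBn hzs hzM hzM' hzN hzN'
        S.attach y (fun g => mul_mem (mul_mem (hSM g g.2) hx'M) (star_mem (hSM g g.2)))
      have hlow : (S.card : ℝ) * ‖offPart sb sa J ξ N (x' * z)‖ ^ 2 ≤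
          ∑ g ∈ S.attach, ‖offPart sb sa J ξ N (y g * z)‖ ^ 2 := by
        rw [← Finset.card_attach, ← nsmul_eq_mul, ← Finset.sum_const]
        exact Finset.sum_le_sum fun g _ =>
          pow_le_pow_left₀ (norm_nonneg _) (hinv g g.2) 2
      have hsum : ∀ Y : H →L[ℂ] H,
          ∑ g ∈ S.attach, (g : H →L[ℂ] H) * Y * star (g : H →L[ℂ] H) =
            (S.card : ℂ) • avg S Y := by
        intro Y
        rw [avg, smul_smul, mul_inv_cancel₀ (by exact_mod_cast hk.ne'), one_smul,
          Finset.sum_attach S fun g => g * Y * star g]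
      have hy1 : ∑ g ∈ S.attach, star (y g) * y g = (S.card : ℂ) • avg S (star x' * x') := by
        rw [← hsum]
        refine Finset.sum_congr rfl fun g _ => ?_
        simp only [y, star_mul, star_star]
        calc (g : H →L[ℂ] H) * (star x' * star (g : H →L[ℂ] H)) *
              ((g : H →L[ℂ] H) * x' * star (g : H →L[ℂ] H))
            = (g : H →L[ℂ] H) * star x' * (star (g : H →L[ℂ] H) * g) * x' *
                star (g : H →L[ℂ] H) := by simp only [mul_assoc]
          _ = _ := by rw [(hS.unit g g.2).1, mul_one]; simp only [mul_assoc]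
      have hy2 : ∑ g ∈ S.attach, y g * star (y g) = (S.card : ℂ) • avg S (x' * star x') := by
        rw [← hsum]
        refine Finset.sum_congr rfl fun g _ => ?_
        simp only [y, star_mul, star_star]
        calc (g : H →L[ℂ] H) * x' * star (g : H →L[ℂ] H) *
              ((g : H →L[ℂ] H) * (star x' * star (g : H →L[ℂ] H)))
            = (g : H →L[ℂ] H) * x' * (star (g : H →L[ℂ] H) * g) * star x' *
                star (g : H →L[ℂ] H) := by simp only [mul_assoc]
          _ = _ := by rw [(hS.unit g g.2).1, mul_one]; simp only [mul_assoc]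
      rw [hy1, hy2, mul_smul_comm, mul_smul_comm, norm_smul, norm_smul, Complex.norm_natCast] at hc
      refine le_of_mul_le_mul_left ((hlow.trans hc).trans_eq ?_) hk
      ring
    -- the pieces
    have hpair : ∀ t ∈ Z ×ˢ W, IsStarProjection (t.1 * t.2) ∧ t.1 * t.2 ∈ M ∧
        t.1 * t.2 ∈ M.commutant ∧ t.1 * t.2 ∈ N ∧ t.1 * t.2 ∈ N.commutant := by
      intro t ht
      obtain ⟨h1, h2⟩ := Finset.mem_product.1 ht
      obtain ⟨z1, z2, z3, z4, z5⟩ := hZ _ h1
      obtain ⟨w1, w2, w3, w4, w5⟩ := hW _ h2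
      exact ⟨P085.isStarProjection_mul z1 w1 (comm_vna z2 w3), mul_mem z2 w2, mul_mem z3 w3,
        mul_mem z4 w4, mul_mem z5 w5⟩
    have hpairo : ∀ t ∈ Z ×ˢ W, ∀ t' ∈ Z ×ˢ W, t ≠ t' → t.1 * t.2 * (t'.1 * t'.2) = 0 := by
      intro t ht t' ht' hne
      obtain ⟨h1, h2⟩ := Finset.mem_product.1 ht
      obtain ⟨h1', h2'⟩ := Finset.mem_product.1 ht'
      rw [mul_assoc, ← mul_assoc t.2, ← comm_vna (hZ _ h1').2.1 (hW _ h2).2.2.1, mul_assoc t'.1,
        ← mul_assoc t.1]
      by_cases he : t.1 = t'.1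
      · rw [hWo _ h2 _ h2' fun e => hne (Prod.ext he e), mul_zero]
      · rw [hZo _ h1 _ h1' he, zero_mul]
    have hpairs : ∑ t ∈ Z ×ˢ W, t.1 * t.2 = 1 := by
      rw [Finset.sum_product, ← Finset.sum_mul_sum, hZs, hWs, one_mul]
    have h0 := norm_sq_offPart_le_sum (sb := sb) (sa := sa) (ξ := ξ) hJ (Z ×ˢ W)
      (fun t => t.1 * t.2) hpair hpairo hpairs hx'M
    refine h0.trans ?_
    set A : (H →L[ℂ] H) → ℝ := fun z => ‖z * q n * avg S (star x * x) * q n‖
    set B : (H →L[ℂ] H) → ℝ := fun w => ‖w * p n * avg S (star (star x) * star x) * p n‖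
    have hAB : ∀ t ∈ Z ×ˢ W, ‖offPart sb sa J ξ N (x' * (t.1 * t.2))‖ ^ 2 ≤
        2 * d ^ 2 * (b * (‖t.2 (t.1 ξ)‖ ^ 2 * A t.1) + a * (‖t.1 (t.2 ξ)‖ ^ 2 * B t.2)) := by
      intro t ht
      obtain ⟨h1, h2⟩ := Finset.mem_product.1 ht
      obtain ⟨z1, z2, z3, -, -⟩ := hZ _ h1
      obtain ⟨w1, w2, w3, -, -⟩ := hW _ h2
      have hzw : t.1 * t.2 = t.2 * t.1 := comm_vna z2 w3
      obtain ⟨g1, g2, g3, g4, g5⟩ := hpair t ht
      refine (hpiece _ g1 g2 g3 g4 g5).trans ?_
      have hav : ∀ {Y : H →L[ℂ] H}, Y ∈ M → avg S Y ∈ M := fun hY => avg_mem hSM hY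
      have hs' : star x' ∈ M := star_mem hx'M
      have e1 : ‖t.1 * t.2 * avg S (star x' * x')‖ ≤ A t.1 := by
        refine le_trans ?_ (norm_avg_cut_le hS (hp n).1 (hq n).1 (hq n).2.2 z1
          (comm_vna (hq n).2.1 z3).symm (comm_vna (hav (mul_mem hxs hx)) z3).symm
          (comm_vna (hav (mul_mem hs' hx'M)) z3).symm)
        rw [hzw, mul_assoc]
        exact (norm_mul_le _ _).trans (mul_le_of_le_one_left (norm_nonneg _) w1.norm_le)
      have hx'' : star x' = q n * star x * p n := by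
        rw [hx', star_mul, star_mul, (hq n).1.isSelfAdjoint.star_eq,
          (hp n).1.isSelfAdjoint.star_eq, mul_assoc]
      have e2 : ‖t.1 * t.2 * avg S (x' * star x')‖ ≤ B t.2 := by
        refine le_trans ?_ (norm_avg_cut_le (x := star x) hS (hq n).1 (hp n).1 (hp n).2.2 w1
          (comm_vna (hp n).2.1 w3).symm
          (comm_vna (hav (mul_mem (star_mem hxs) hxs)) w3).symm
          (comm_vna (hav (by rw [← hx'']; exact mul_mem (star_mem hs') hs')) w3).symm)
        rw [← hx'', star_star, mul_assoc]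
        exact (norm_mul_le _ _).trans (mul_le_of_le_one_left (norm_nonneg _) z1.norm_le)
      rw [show (t.1 * t.2) ξ = t.1 (t.2 ξ) from rfl,
        show t.2 (t.1 ξ) = t.1 (t.2 ξ) from DFunLike.congr_fun hzw.symm ξ, mul_assoc (2 * d ^ 2)]
      refine mul_le_mul_of_nonneg_left ?_ (by positivity)
      rw [mul_add, mul_left_comm, mul_left_comm _ a]
      gcongr
    refine (Finset.sum_le_sum hAB).trans ?_
    rw [← Finset.mul_sum]
    refine mul_le_mul_of_nonneg_left ?_ (by positivity)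
    rw [Finset.sum_add_distrib, ← Finset.mul_sum, ← Finset.mul_sum,
      Finset.sum_product (s := Z) (t := W), Finset.sum_product_right (s := Z) (t := W)]
    have hWv : ∀ v, ∑ w ∈ W, ‖w v‖ ^ 2 = ‖v‖ ^ 2 := fun v =>
      sum_norm_sq_proj W id (fun w hw => (hW w hw).1) hWs v
    have hZv : ∀ v, ∑ z ∈ Z, ‖z v‖ ^ 2 = ‖v‖ ^ 2 := fun v =>
      sum_norm_sq_proj Z id (fun z hz => (hZ z hz).1) hZs v
    simp only [← Finset.sum_mul, hWv, hZv]
    have hsumx : ∀ (T : H →L[ℂ] H), T ∈ M → ∀ (P : Finset (H →L[ℂ] H)),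
        (∀ z ∈ P, IsStarProjection z ∧ z ∈ M.commutant) → ∑ z ∈ P, z = 1 →
        ∑ z ∈ P, (‖T (z ξ)‖ ^ 2 + η * ‖z ξ‖ ^ 2) = ‖T ξ‖ ^ 2 + η := by
      intro T hT P hP hPs
      rw [Finset.sum_add_distrib, ← Finset.mul_sum,
        show ∑ z ∈ P, ‖z ξ‖ ^ 2 = ‖ξ‖ ^ 2 from sum_norm_sq_proj P id (fun z hz => (hP z hz).1) hPs ξ, hB.csM.norm_one, one_pow, mul_one,
        Finset.sum_congr rfl fun z hz => show ‖T (z ξ)‖ ^ 2 = ‖z (T ξ)‖ ^ 2 by
          rw [Tomita.commute_apply hT (hP z hz).2]]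
      rw [show ∑ z ∈ P, ‖z (T ξ)‖ ^ 2 = ‖T ξ‖ ^ 2 from sum_norm_sq_proj P id (fun z hz => (hP z hz).1) hPs _]
    have hX : ∑ z ∈ Z, ‖z ξ‖ ^ 2 * A z ≤ ‖x ξ‖ ^ 2 + η := by
      rw [← hsumx x hx Z (fun z hz => ⟨(hZ z hz).1, (hZ z hz).2.2.1⟩) hZs]
      exact Finset.sum_le_sum fun z hz => by rw [mul_comm]; exact hqb n z hz
    have hY : ∑ w ∈ W, ‖w ξ‖ ^ 2 * B w ≤ ‖star x ξ‖ ^ 2 + η := by
      rw [← hsumx (star x) hxs W (fun w hw => ⟨(hW w hw).1, (hW w hw).2.2.1⟩) hWs]
      exact Finset.sum_le_sum fun w hw => by rw [mul_comm]; exact hpb n w hw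
    rw [norm_sq_graphMap hJ, hsb, hsa, Real.sq_sqrt hb0, Real.sq_sqrt ha0]
    nlinarith [mul_le_mul_of_nonneg_left hX hb0, mul_le_mul_of_nonneg_left hY ha0]
  -- the limit
  have hbd : ∀ {e : ℕ → H →L[ℂ] H}, (∀ n, IsStarProjection (e n)) →
      ∀ {f : ℕ → H →L[ℂ] H} {y : H →L[ℂ] H} (v : H), (∀ w, Tendsto (fun n => e n w) atTop (𝓝 w)) →
      (∀ w, Tendsto (fun n => f n w) atTop (𝓝 w)) →
      Tendsto (fun n => e n (y (f n v))) atTop (𝓝 (y v)) := by
    intro e he f y v het hft
    rw [tendsto_iff_norm_sub_tendsto_zero]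
    have h1 : Tendsto (fun n => ‖y (f n v) - y v‖ + ‖e n (y v) - y v‖) atTop (𝓝 0) := by
      simpa using (tendsto_iff_norm_sub_tendsto_zero.1 (((y.continuous.tendsto _).comp (hft v)))).add
        (tendsto_iff_norm_sub_tendsto_zero.1 (het (y v)))
    refine squeeze_zero (fun n => norm_nonneg _) (fun n => ?_) h1
    have e1 : e n (y (f n v)) - y v = e n (y (f n v) - y v) + (e n (y v) - y v) := by
      rw [map_sub]; abel
    rw [e1]
    exact (norm_add_le _ _).trans (add_le_add (P085.norm_proj_apply_le (he n) _) le_rfl)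
  have hlimg : Tendsto (fun n => graphMap sb sa J ξ (p n * x * q n)) atTop
      (𝓝 (graphMap sb sa J ξ x)) := by
    refine (WithLp.prod_continuous_toLp 2 H H).continuousAt.tendsto.comp ?_
    refine Tendsto.prodMk_nhds ((hbd (fun n => (hp n).1) ξ hpt hqt).const_smul _)
      (Tendsto.const_smul ((J.continuous.tendsto _).comp ?_) _)
    refine (hbd (fun n => (hq n).1) (y := star x) ξ hqt hpt).congr fun n => ?_
    simp [star_mul, (hq n).1.isSelfAdjoint.star_eq, (hp n).1.isSelfAdjoint.star_eq]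
  have hoff : Tendsto (fun n => offPart sb sa J ξ N (p n * x * q n)) atTop
      (𝓝 (offPart sb sa J ξ N x)) :=
    hlimg.sub (((graphSpace sb sa J ξ N).starProjection.continuous.tendsto _).comp hlimg)
  exact le_of_tendsto (hoff.norm.pow 2) (.of_forall hstage)

end Vale.Agent.P096.AT.Scale
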