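import Vale.Agent.P096.AT.Avg
import Vale.Agent.P104.Groth
import Vale.Agent.P104.Sim.Amplify

/-!
# P096, algebras of every type: the weighted graphs

The vectors `(√b xξ, √a J x*ξ)` depend linearly on `x`. Little Grothendieck on a rectangular
corner of the matrices over `M`, with `1/b` columns and `1/a` rows, bounds the distance of these
vectors to the closed space of the same vectors of the nearby algebra by their own norms.
-/

noncomputable section

namespace Vale.Agent.P096.AT.Scale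

open scoped InnerProductSpace
open Filter Topology
open Vale.Agent.P132
open Vale.Agent.P104.Sim (MatContraction)
open Vale.Agent.P104.Sim.Amplify

universe u

variable {H : Type u} [NormedAddCommGroup H] [InnerProductSpace ℂ H] [CompleteSpace H]

/-- A conjugate linear involutive isometry. -/
structure IsConj (J : H →L⋆[ℂ] H) : Prop where
  invol : ∀ v, J (J v) = v
  isometry : ∀ v, ‖J v‖ = ‖v‖

omit [CompleteSpace H] in
lemma IsConj.inner_map {J : H →L⋆[ℂ] H} (hJ : IsConj J) (u v : H) : ⟪J u, J v⟫_ℂ = ⟪v, u⟫_ℂ := by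
  have hre : ∀ p q : H, (⟪J p, J q⟫_ℂ).re = (⟪q, p⟫_ℂ).re := fun p q => by
    have h1 := norm_add_sq (𝕜 := ℂ) (J p) (J q)
    have h2 := norm_add_sq (𝕜 := ℂ) q p
    rw [← map_add, hJ.isometry, hJ.isometry, hJ.isometry, add_comm p q] at h1
    rw [RCLike.re_eq_complex_re] at h1 h2
    linarith
  refine Complex.ext (hre u v) ?_
  have h3 := hre (Complex.I • u) v
  rw [map_smulₛₗ, inner_smul_left, inner_smul_right] at h3
  simpa using h3

/-- Pairs of vectors with the square sum norm. -/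
abbrev Pr (H : Type u) : Type u := WithLp 2 (H × H)

/-- The scaled graph vector of an operator. -/
def graphMap (sb sa : ℝ) (J : H →L⋆[ℂ] H) (ξ : H) : (H →L[ℂ] H) →ₗ[ℂ] Pr H where
  toFun x := WithLp.toLp 2 ((sb : ℂ) • x ξ, (sa : ℂ) • J (star x ξ))
  map_add' x y := by
    apply WithLp.ofLp_injective
    simp [add_apply, map_add, smul_add, -Complex.coe_smul]
  map_smul' c x := by
    apply WithLp.ofLp_injective
    simp [smul_apply, map_smulₛₗ, smul_smul, mul_comm, -Complex.coe_smul]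

/-- The closed space of the graph vectors of an algebra. -/
def graphSpace (sb sa : ℝ) (J : H →L⋆[ℂ] H) (ξ : H) (N : VonNeumannAlgebra H) :
    Submodule ℂ (Pr H) :=
  ((N.toStarSubalgebra.toSubalgebra.toSubmodule).map (graphMap sb sa J ξ)).topologicalClosure

instance instCompleteGraphSpace (sb sa : ℝ) (J : H →L⋆[ℂ] H) (ξ : H) (N : VonNeumannAlgebra H) :
    CompleteSpace (graphSpace sb sa J ξ N) :=
  (Submodule.isClosed_topologicalClosure _).completeSpace_coe

/-- The part of a graph vector orthogonal to the nearby space. -/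
def offPart (sb sa : ℝ) (J : H →L⋆[ℂ] H) (ξ : H) (N : VonNeumannAlgebra H) :
    (H →L[ℂ] H) →ₗ[ℂ] Pr H :=
  graphMap sb sa J ξ -
    ((graphSpace sb sa J ξ N).starProjection : Pr H →L[ℂ] Pr H).toLinearMap ∘ₗ
      graphMap sb sa J ξ

variable {sb sa : ℝ} {J : H →L⋆[ℂ] H} {ξ : H} {M N : VonNeumannAlgebra H}

omit [InnerProductSpace ℂ H] [CompleteSpace H] in
lemma pr_norm_sq (u v : H) : ‖(WithLp.toLp 2 (u, v) : Pr H)‖ ^ 2 = ‖u‖ ^ 2 + ‖v‖ ^ 2 := by
  rw [WithLp.prod_norm_sq_eq_of_L2]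
  rfl

lemma graphMap_apply (x : H →L[ℂ] H) :
    graphMap sb sa J ξ x = WithLp.toLp 2 ((sb : ℂ) • x ξ, (sa : ℂ) • J (star x ξ)) := rfl

lemma norm_sq_graphMap (hJ : IsConj J) (x : H →L[ℂ] H) :
    ‖graphMap sb sa J ξ x‖ ^ 2 = sb ^ 2 * ‖x ξ‖ ^ 2 + sa ^ 2 * ‖star x ξ‖ ^ 2 := by
  rw [graphMap_apply, pr_norm_sq]
  simp only [norm_smul, Complex.norm_real, Real.norm_eq_abs, hJ.isometry, mul_pow, sq_abs]

lemma graphMap_mem {y : H →L[ℂ] H} (hy : y ∈ N) :
    graphMap sb sa J ξ y ∈ graphSpace sb sa J ξ N :=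
  Submodule.le_topologicalClosure _ (Submodule.mem_map_of_mem hy)

lemma offPart_apply (x : H →L[ℂ] H) :
    offPart sb sa J ξ N x =
      graphMap sb sa J ξ x - (graphSpace sb sa J ξ N).starProjection (graphMap sb sa J ξ x) :=
  rfl

lemma norm_offPart_le (x : H →L[ℂ] H) {p : Pr H} (hp : p ∈ graphSpace sb sa J ξ N) :
    ‖offPart sb sa J ξ N x‖ ≤ ‖graphMap sb sa J ξ x - p‖ := by
  set S := graphSpace sb sa J ξ N
  set e := graphMap sb sa J ξ x
  have h0 : ⟪e - S.starProjection e, S.starProjection e - p⟫_ℂ = 0 :=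
    Submodule.inner_left_of_mem_orthogonal
      (sub_mem (Submodule.starProjection_apply_mem S e) hp)
      (Submodule.sub_starProjection_mem_orthogonal e)
  have h1 := norm_add_sq (𝕜 := ℂ) (e - S.starProjection e) (S.starProjection e - p)
  rw [h0, sub_add_sub_cancel, map_zero, mul_zero, add_zero] at h1
  rw [offPart_apply]
  refine le_of_pow_le_pow_left₀ two_ne_zero (norm_nonneg _) ?_
  rw [h1]
  exact le_add_of_nonneg_right (sq_nonneg _)

lemma inner_le_offPart (x : H →L[ℂ] H) {B : Pr H} (hB : B ∈ (graphSpace sb sa J ξ N)ᗮ) :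
    ‖⟪B, graphMap sb sa J ξ x⟫_ℂ‖ ≤ ‖B‖ * ‖offPart sb sa J ξ N x‖ := by
  have h : ⟪B, (graphSpace sb sa J ξ N).starProjection (graphMap sb sa J ξ x)⟫_ℂ = 0 :=
    Submodule.inner_left_of_mem_orthogonal (Submodule.starProjection_apply_mem _ _) hB
  have e : ⟪B, graphMap sb sa J ξ x⟫_ℂ = ⟪B, offPart sb sa J ξ N x⟫_ℂ := by
    rw [offPart_apply, inner_sub_right, h, sub_zero]
  rw [e]
  exact norm_inner_le_norm _ _

/-! ## Symmetries of the pairs -/

/-- The pair map given by `h c` on the first and its conjugate on the second component. -/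
def pairMap (J : H →L⋆[ℂ] H) (T : H →L[ℂ] H) : Pr H →L[ℂ] Pr H :=
  LinearMap.mkContinuous
    { toFun := fun v => WithLp.toLp 2 (T v.fst, J (T (J v.snd)))
      map_add' := fun v w => by
        apply WithLp.ofLp_injective
        simp [map_add]
      map_smul' := fun c v => by
        apply WithLp.ofLp_injective
        simp [map_smulₛₗ] }
    (‖T‖ + ‖J‖ * ‖T‖ * ‖J‖) fun v => by
      have h1 : ‖T v.fst‖ ≤ ‖T‖ * ‖v‖ :=
        (T.le_opNorm _).trans (mul_le_mul_of_nonneg_left (by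
          refine le_of_pow_le_pow_left₀ two_ne_zero (norm_nonneg _) ?_
          rw [WithLp.prod_norm_sq_eq_of_L2]
          exact le_add_of_nonneg_right (sq_nonneg _)) (norm_nonneg _))
      have h2 : ‖J (T (J v.snd))‖ ≤ ‖J‖ * ‖T‖ * ‖J‖ * ‖v‖ := by
        have hs : ‖v.snd‖ ≤ ‖v‖ := by
          refine le_of_pow_le_pow_left₀ two_ne_zero (norm_nonneg _) ?_
          rw [WithLp.prod_norm_sq_eq_of_L2]
          exact le_add_of_nonneg_left (sq_nonneg _)
        refine (J.le_opNorm _).trans ?_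
        rw [mul_assoc, mul_assoc]
        refine mul_le_mul_of_nonneg_left ((T.le_opNorm _).trans ?_) (norm_nonneg _)
        exact mul_le_mul_of_nonneg_left ((J.le_opNorm _).trans
          (mul_le_mul_of_nonneg_left hs (norm_nonneg _))) (norm_nonneg _)
      have h3 : ‖(WithLp.toLp 2 (T v.fst, J (T (J v.snd))) : Pr H)‖ ≤
          ‖T v.fst‖ + ‖J (T (J v.snd))‖ := by
        refine le_of_pow_le_pow_left₀ two_ne_zero (by positivity) ?_
        rw [pr_norm_sq]
        nlinarith [norm_nonneg (T v.fst), norm_nonneg (J (T (J v.snd)))]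
      rw [add_mul]
      exact h3.trans (add_le_add h1 h2)

omit [CompleteSpace H] in
lemma pairMap_apply (T : H →L[ℂ] H) (v : Pr H) :
    pairMap J T v = WithLp.toLp 2 (T v.fst, J (T (J v.snd))) := rfl

lemma norm_pairMap_le (hJ : IsConj J) {T : H →L[ℂ] H} (hT : ∀ v, ‖T v‖ ≤ ‖v‖) (v : Pr H) :
    ‖pairMap J T v‖ ≤ ‖v‖ := by
  refine le_of_pow_le_pow_left₀ two_ne_zero (norm_nonneg _) ?_
  rw [pairMap_apply, pr_norm_sq, WithLp.prod_norm_sq_eq_of_L2 v, hJ.isometry]
  refine add_le_add (pow_le_pow_left₀ (norm_nonneg _) (hT _) 2)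
    (pow_le_pow_left₀ (norm_nonneg _) ((hT _).trans ?_) 2)
  rw [hJ.isometry]

lemma pairMap_graphMap (hJ : IsConj J) {T x x' : H →L[ℂ] H} (h1 : T (x ξ) = x' ξ)
    (h2 : T (star x ξ) = star x' ξ) :
    pairMap J T (graphMap sb sa J ξ x) = graphMap sb sa J ξ x' := by
  rw [pairMap_apply, graphMap_apply, graphMap_apply]
  apply WithLp.ofLp_injective
  simp [map_smulₛₗ, h1, h2, hJ.invol, -Complex.coe_smul]

lemma pairMap_mem {T : H →L[ℂ] H}
    (h : ∀ y ∈ N, ∃ y' ∈ N, pairMap J T (graphMap sb sa J ξ y) = graphMap sb sa J ξ y')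
    {p : Pr H} (hp : p ∈ graphSpace sb sa J ξ N) :
    pairMap J T p ∈ graphSpace sb sa J ξ N := by
  have hp' : p ∈ closure
      (((N.toStarSubalgebra.toSubalgebra.toSubmodule).map (graphMap sb sa J ξ) :
        Submodule ℂ (Pr H)) : Set (Pr H)) := by
    rw [← Submodule.topologicalClosure_coe]
    exact hp
  have hc := map_mem_closure (pairMap J T).continuous hp'
    (t := (((N.toStarSubalgebra.toSubalgebra.toSubmodule).map (graphMap sb sa J ξ) :
        Submodule ℂ (Pr H)) : Set (Pr H))) (by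
      rintro _ ⟨y, hy, rfl⟩
      obtain ⟨y', hy', e⟩ := h y hy
      exact ⟨y', hy', e.symm⟩)
  rw [← Submodule.topologicalClosure_coe] at hc
  exact hc

/-- A symmetry of both spaces does not increase the part off the nearby space. -/
lemma norm_offPart_conj_le (hJ : IsConj J) {h c x : H →L[ℂ] H} (hhN : h ∈ N)
    (hcN : c ∈ N.commutant) (hx : x ∈ M) (hcM : c ∈ M.commutant)
    (hcξ : c ξ = star h ξ) (hh : ∀ v, ‖h v‖ ≤ ‖v‖) (hc : ∀ v, ‖c v‖ ≤ ‖v‖) :
    ‖offPart sb sa J ξ N (h * x * star h)‖ ≤ ‖offPart sb sa J ξ N x‖ := by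
  have key : ∀ {A : VonNeumannAlgebra H} {y : H →L[ℂ] H}, y ∈ A → c ∈ A.commutant →
      pairMap J (h * c) (graphMap sb sa J ξ y) = graphMap sb sa J ξ (h * y * star h) := by
    intro A y hy hcA
    refine pairMap_graphMap hJ ?_ ?_
    · simp only [mul_apply_eq_comp]
      rw [← hcξ, Tomita.commute_apply hy hcA]
    · simp only [star_mul, star_star, mul_apply_eq_comp]
      rw [← hcξ, Tomita.commute_apply (star_mem (s := A) hy) hcA]
  set S := graphSpace sb sa J ξ N
  set p := S.starProjection (graphMap sb sa J ξ x)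
  have hp : pairMap J (h * c) p ∈ S :=
    pairMap_mem (fun y hy => ⟨h * y * star h,
      mul_mem (mul_mem hhN hy) (star_mem (s := N) hhN), key hy hcN⟩)
      (Submodule.starProjection_apply_mem _ _)
  refine (norm_offPart_le _ hp).trans ?_
  rw [← key hx hcM, ← map_sub, offPart_apply]
  exact norm_pairMap_le hJ (fun v => by
    rw [mul_apply_eq_comp]; exact (hh _).trans (hc v)) _

omit [CompleteSpace H] in
lemma norm_sum_orth {ι : Type*} (s : Finset ι) (u : ι → Pr H)
    (h : ∀ i ∈ s, ∀ j ∈ s, i ≠ j → ⟪u i, u j⟫_ℂ = 0) :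
    ‖∑ i ∈ s, u i‖ ^ 2 = ∑ i ∈ s, ‖u i‖ ^ 2 := by
  classical
  induction s using Finset.induction with
  | empty => simp
  | insert a s ha ih =>
    have h0 : ⟪u a, ∑ i ∈ s, u i⟫_ℂ = 0 := by
      rw [inner_sum]
      exact Finset.sum_eq_zero fun i hi => h a (Finset.mem_insert_self _ _) i
        (Finset.mem_insert_of_mem hi) fun e => ha (e ▸ hi)
    rw [Finset.sum_insert ha, Finset.sum_insert ha, @norm_add_sq ℂ, h0, map_zero, mul_zero,
      add_zero, ih fun i hi j hj => h i (Finset.mem_insert_of_mem hi) j (Finset.mem_insert_of_mem hj)]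

/-- The part off the nearby space splits over central pieces common to the two algebras. -/
lemma norm_sq_offPart_le_sum (hJ : IsConj J) {ι : Type*} (s : Finset ι) (z : ι → H →L[ℂ] H)
    (hz : ∀ i ∈ s, IsStarProjection (z i) ∧ z i ∈ M ∧ z i ∈ M.commutant ∧ z i ∈ N ∧
      z i ∈ N.commutant)
    (horth : ∀ i ∈ s, ∀ j ∈ s, i ≠ j → z i * z j = 0) (hsum : ∑ i ∈ s, z i = 1)
    {x : H →L[ℂ] H} (hx : x ∈ M) :
    ‖offPart sb sa J ξ N x‖ ^ 2 ≤ ∑ i ∈ s, ‖offPart sb sa J ξ N (x * z i)‖ ^ 2 := by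
  set S := graphSpace sb sa J ξ N
  set e := fun y => graphMap sb sa J ξ y
  have hkey : ∀ i ∈ s, ∀ {A : VonNeumannAlgebra H} {y : H →L[ℂ] H}, y ∈ A → z i ∈ A →
      z i ∈ A.commutant → pairMap J (z i) (e y) = e (y * z i) := by
    intro i hi A y hy hzA hzA'
    refine pairMap_graphMap hJ ?_ ?_
    · rw [mul_apply_eq_comp]
      exact (Tomita.commute_apply hy hzA' ξ)
    · rw [star_mul, (hz i hi).1.isSelfAdjoint.star_eq, mul_apply_eq_comp]
  set w := fun i => pairMap J (z i) (offPart sb sa J ξ N (x * z i))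
  have hidem : ∀ i ∈ s, x * z i * z i = x * z i := fun i hi => by
    rw [mul_assoc, (hz i hi).1.isIdempotentElem.eq]
  have hw : ∀ i ∈ s, w i = e (x * z i) - pairMap J (z i) (S.starProjection (e (x * z i))) := by
    intro i hi
    obtain ⟨-, hM, hM', -, -⟩ := hz i hi
    simp only [w, e, offPart_apply, map_sub]
    rw [hkey i hi (mul_mem hx hM) hM hM', hidem i hi]
  have hp : ∑ i ∈ s, pairMap J (z i) (S.starProjection (e (x * z i))) ∈ S :=
    sum_mem fun i hi => pairMap_mem (fun y hy => ⟨y * z i, mul_mem hy (hz i hi).2.2.2.1,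
      hkey i hi hy (hz i hi).2.2.2.1 (hz i hi).2.2.2.2⟩) (Submodule.starProjection_apply_mem _ _)
  have he : e x = ∑ i ∈ s, e (x * z i) := by
    simp only [e, ← map_sum, ← Finset.mul_sum, hsum, mul_one]
  have h1 : ‖offPart sb sa J ξ N x‖ ≤ ‖∑ i ∈ s, w i‖ := by
    refine (norm_offPart_le x hp).trans (le_of_eq ?_)
    rw [show graphMap sb sa J ξ x = e x from rfl, he, ← Finset.sum_sub_distrib]
    exact congrArg _ (Finset.sum_congr rfl fun i hi => (hw i hi).symm)
  have horth' : ∀ i ∈ s, ∀ j ∈ s, i ≠ j → ⟪w i, w j⟫_ℂ = 0 := by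
    intro i hi j hj hij
    have hz0 : ∀ {k l : ι}, k ∈ s → l ∈ s → k ≠ l → ∀ u v : H, ⟪z k u, z l v⟫_ℂ = 0 := by
      intro k l hk hl hkl u v
      rw [Tomita.inner_sa_left (hz k hk).1.isSelfAdjoint,
        show z k (z l v) = (z k * z l) v from rfl, horth k hk l hl hkl, zero_apply, inner_zero_right]
    simp only [w, pairMap_apply, WithLp.prod_inner_apply, hJ.inner_map]
    rw [hz0 hi hj hij, hz0 hj hi (Ne.symm hij), add_zero]
  refine (pow_le_pow_left₀ (norm_nonneg _) h1 2).trans ?_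
  rw [norm_sum_orth s w horth']
  refine Finset.sum_le_sum fun i hi => pow_le_pow_left₀ (norm_nonneg _)
    (norm_pairMap_le hJ (fun v => P085.norm_proj_apply_le (hz i hi).1 v) _) 2

/-! ## The corner -/

instance isClosed_vna (A : VonNeumannAlgebra H) :
    IsClosed (A.toStarSubalgebra : Set (H →L[ℂ] H)) := by
  change IsClosed (A : Set (H →L[ℂ] H))
  rw [← A.centralizer_centralizer]
  exact Set.isClosed_centralizer _

instance cstarVna (A : VonNeumannAlgebra H) : CStarAlgebra A.toStarSubalgebra :=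
  StarSubalgebra.cstarAlgebra A.toStarSubalgebra

lemma norm_sq_sum_diag_le {m n : ℕ} (f : Fin m → Fin n) (hf : Function.Injective f)
    (Y : H →L[ℂ] H) : ‖∑ l, inj (f l) ∘L Y ∘L pr (f l)‖ ≤ ‖Y‖ := by
  refine ContinuousLinearMap.opNorm_le_bound _ (norm_nonneg _) fun v => ?_
  refine le_of_pow_le_pow_left₀ two_ne_zero (by positivity) ?_
  rw [mul_pow, PiLp.norm_sq_eq_of_L2, PiLp.norm_sq_eq_of_L2, Finset.mul_sum]
  refine Finset.sum_le_sum fun i _ => ?_
  simp only [FunLike.coe_sum, Finset.sum_apply, WithLp.ofLp_sum, ContinuousLinearMap.comp_apply,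
    inj_apply, pr_apply]
  by_cases h : ∃ l, f l = i
  · obtain ⟨l, rfl⟩ := h
    rw [Finset.sum_eq_single l (fun b _ hb => if_neg fun e => hb (hf e).symm)
      (fun h => absurd (Finset.mem_univ l) h), if_pos rfl, ← mul_pow]
    exact pow_le_pow_left₀ (norm_nonneg _) (Y.le_opNorm _) 2
  · rw [Finset.sum_eq_zero fun b _ => if_neg fun e => h ⟨b, e.symm⟩, norm_zero,
      zero_pow two_ne_zero]
    positivity

/-- A matrix over `M` is near one over `N`, with the bound on columns and on rows of adjoints. -/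
lemma exists_near_matrix {n : ℕ} {d : ℝ} (hMN : MatWithin M N d)
    (X : Amp H n →L[ℂ] Amp H n) (hX : ∀ i j, ent X i j ∈ M) :
    ∃ Y : Fin n → Fin n → (H →L[ℂ] H), (∀ i j, Y i j ∈ N) ∧
      (∀ j w, ∑ i, ‖(ent X i j - Y i j) w‖ ^ 2 ≤ (d * ‖X‖) ^ 2 * ‖w‖ ^ 2) ∧
      ∀ i w, ∑ j, ‖star (ent X i j - Y i j) w‖ ^ 2 ≤ (d * ‖X‖) ^ 2 * ‖w‖ ^ 2 := by
  classical
  suffices h : ∃ Y : Fin n → Fin n → (H →L[ℂ] H), (∀ i j, Y i j ∈ N) ∧ ∀ v : Fin n → H,
      ∑ i, ‖∑ j, (ent X i j - Y i j) (v j)‖ ^ 2 ≤ (d * ‖X‖) ^ 2 * ∑ j, ‖v j‖ ^ 2 by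
    obtain ⟨Y, hY, hb⟩ := h
    refine ⟨Y, hY, fun j w => ?_, fun i w => ?_⟩
    · simpa [Pi.single_apply, apply_ite] using hb (Pi.single j w)
    · set D := fun j => ent X i j - Y i j
      set S := ∑ j, ‖star (D j) w‖ ^ 2 with hS
      have hS0 : 0 ≤ S := Finset.sum_nonneg fun _ _ => sq_nonneg _
      have h1 : S = (⟪w, ∑ j, D j (star (D j) w)⟫_ℂ).re := by
        rw [inner_sum, Complex.re_sum, hS]
        refine Finset.sum_congr rfl fun j _ => ?_
        rw [← Tomita.inner_star_left, inner_self_eq_norm_sq_to_K]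
        norm_cast
      have h2 : ‖∑ j, D j (star (D j) w)‖ ^ 2 ≤ (d * ‖X‖) ^ 2 * S :=
        le_trans (Finset.single_le_sum
          (f := fun k => ‖∑ j, (ent X k j - Y k j) (star (D j) w)‖ ^ 2)
          (fun k _ => sq_nonneg _) (Finset.mem_univ i)) (hb fun j => star (D j) w)
      have h3 : S ≤ ‖w‖ * ‖∑ j, D j (star (D j) w)‖ := by
        rw [h1]; exact (Complex.re_le_norm _).trans (norm_inner_le_norm _ _)
      have h4 : S ^ 2 ≤ (d * ‖X‖) ^ 2 * ‖w‖ ^ 2 * S := by
        refine (pow_le_pow_left₀ hS0 h3 2).trans ?_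
        rw [mul_pow, mul_comm ((d * ‖X‖) ^ 2), mul_assoc]
        exact mul_le_mul_of_nonneg_left h2 (sq_nonneg _)
      rcases hS0.eq_or_lt with h0 | h0
      · change S ≤ _
        rw [← h0]; positivity
      · exact le_of_mul_le_mul_right (by rw [← sq]; exact h4) h0
  rcases (norm_nonneg X).eq_or_lt with h0 | h0
  · refine ⟨fun _ _ => 0, fun _ _ => zero_mem N, fun v => ?_⟩
    have hX0 : X = 0 := norm_eq_zero.1 h0.symm
    simp [hX0, ent]
  set c : ℂ := (‖X‖ : ℂ)
  obtain ⟨Y, hY, -, hb⟩ := hMN n (fun i j => c⁻¹ • ent X i j)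
    (fun i j => M.toStarSubalgebra.smul_mem (hX i j) _) fun v => by
      have h1 : ‖X (WithLp.toLp 2 v)‖ ^ 2 ≤ ‖X‖ ^ 2 * ‖(WithLp.toLp 2 v : Amp H n)‖ ^ 2 := by
        rw [← mul_pow]; exact pow_le_pow_left₀ (norm_nonneg _) (X.le_opNorm _) 2
      rw [PiLp.norm_sq_eq_of_L2, PiLp.norm_sq_eq_of_L2] at h1
      simp only [apply_eq_sum] at h1
      simp only [smul_apply, ← Finset.smul_sum, norm_smul, mul_pow, ← Finset.mul_sum, c,
        norm_inv, Complex.norm_real, norm_norm]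
      rw [inv_pow, inv_mul_le_iff₀ (by positivity)]
      exact h1
  refine ⟨fun i j => c • Y i j, fun i j => N.toStarSubalgebra.smul_mem (hY i j) _, fun v => ?_⟩
  have hc : c ≠ 0 := by simp [c, h0.ne']
  have e : ∀ i j, (ent X i j - c • Y i j) (v j) = c • ((c⁻¹ • ent X i j - Y i j) (v j)) := by
    intro i j
    simp [smul_sub, smul_smul, mul_inv_cancel₀ hc]
  simp only [e, ← Finset.smul_sum, norm_smul, mul_pow, ← Finset.mul_sum]
  rw [show ‖c‖ = ‖X‖ by simp [c], mul_comm (d ^ 2), mul_assoc]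
  exact mul_le_mul_of_nonneg_left (hb v) (sq_nonneg _)

/-- Little Grothendieck on the corner of `nA` rows and `nB` columns. -/
lemma sum_offPart_le (hJ : IsConj J) {d : ℝ} (hd : 0 ≤ d) (hMN : MatWithin M N d)
    {nA nB : ℕ} (hA : 0 < nA) (hB : 0 < nB) {z : H →L[ℂ] H} (hzs : IsStarProjection z)
    (hzM : z ∈ M) (hzM' : z ∈ M.commutant) (hzN : z ∈ N) (hzN' : z ∈ N.commutant)
    {ι : Type*} (s : Finset ι) (x : ι → H →L[ℂ] H) (hx : ∀ i, x i ∈ M) :
    ∑ i ∈ s, ‖offPart (Real.sqrt (nB : ℝ)⁻¹) (Real.sqrt (nA : ℝ)⁻¹) J ξ N (x i * z)‖ ^ 2 ≤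
      2 * d ^ 2 * ‖z ξ‖ ^ 2 *
        ((nB : ℝ)⁻¹ * ‖z * ∑ i ∈ s, star (x i) * x i‖ +
          (nA : ℝ)⁻¹ * ‖z * ∑ i ∈ s, x i * star (x i)‖) := by
  classical
  set sb := Real.sqrt (nB : ℝ)⁻¹ with hsb
  set sa := Real.sqrt (nA : ℝ)⁻¹ with hsa
  set n := nA + nB
  set fA : Fin nA → Fin n := Fin.castAdd nB
  set fB : Fin nB → Fin n := Fin.natAdd nA
  have hfA : Function.Injective fA := Fin.castAdd_injective nA nB
  have hfB : Function.Injective fB := Fin.natAdd_injective nB nA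
  let T0 : (ampN M n).toStarSubalgebra →ₗ[ℂ] PiLp 2 (fun _ : Fin nA × Fin nB => Pr H) :=
    { toFun := fun X => WithLp.toLp 2 fun p =>
        offPart sb sa J ξ N (ent (X : Amp H n →L[ℂ] Amp H n) (fA p.1) (fB p.2) * z)
      map_add' := fun X Y => by
        ext p
        simp [ent, add_mul]
      map_smul' := fun c X => by
        ext p
        simp [ent] }
  have hT0 : ∀ X : (ampN M n).toStarSubalgebra,
      ‖T0 X‖ ≤ Real.sqrt 2 * d * ‖z ξ‖ * ‖X‖ := by
    intro X
    obtain ⟨Y, hY, hcol, hrow⟩ := exists_near_matrix hMN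
      (X : Amp H n →L[ℂ] Amp H n) (mem_ampN.1 X.2)
    set D := fun i j => ent (X : Amp H n →L[ℂ] Amp H n) i j - Y i j
    have hpt : ∀ k l, ‖offPart sb sa J ξ N (ent (X : Amp H n →L[ℂ] Amp H n) k l * z)‖ ^ 2 ≤
        (nB : ℝ)⁻¹ * ‖D k l (z ξ)‖ ^ 2 + (nA : ℝ)⁻¹ * ‖star (D k l) (z ξ)‖ ^ 2 := by
      intro k l
      have hc1 := Tomita.commute_apply (star_mem (s := M) (mem_ampN.1 X.2 k l)) hzM' ξ
      have hc2 := Tomita.commute_apply (star_mem (s := N) (hY k l)) hzN' ξ
      refine (pow_le_pow_left₀ (norm_nonneg _)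
        (norm_offPart_le _ (graphMap_mem (mul_mem (hY k l) hzN))) 2).trans (le_of_eq ?_)
      rw [← map_sub, ← sub_mul, norm_sq_graphMap hJ, hsb, hsa, Real.sq_sqrt (by positivity),
        Real.sq_sqrt (by positivity), star_mul, hzs.isSelfAdjoint.star_eq]
      simp only [mul_apply_eq_comp, D, star_sub, sub_apply, map_sub, hc1, hc2]
    refine le_of_pow_le_pow_left₀ two_ne_zero (by positivity) ?_
    rw [PiLp.norm_sq_eq_of_L2, Fintype.sum_prod_type]
    refine (Finset.sum_le_sum fun k _ => Finset.sum_le_sum fun l _ => hpt (fA k) (fB l)).trans ?_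
    simp only [Finset.sum_add_distrib, ← Finset.mul_sum]
    have hcol' : ∑ k, ∑ l, ‖D (fA k) (fB l) (z ξ)‖ ^ 2 ≤
        nB * ((d * ‖X‖) ^ 2 * ‖z ξ‖ ^ 2) := by
      rw [Finset.sum_comm]
      refine (Finset.sum_le_sum fun l _ => le_trans ?_ (hcol (fB l) (z ξ))).trans_eq
        (by simp [Finset.sum_const, nsmul_eq_mul])
      rw [← Finset.sum_image (f := fun i => ‖D i (fB l) (z ξ)‖ ^ 2) fun a _ b _ h => hfA h]
      exact Finset.sum_le_sum_of_subset_of_nonneg (Finset.subset_univ _) fun _ _ _ => sq_nonneg _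
    have hrow' : ∑ k, ∑ l, ‖star (D (fA k) (fB l)) (z ξ)‖ ^ 2 ≤
        nA * ((d * ‖X‖) ^ 2 * ‖z ξ‖ ^ 2) := by
      refine (Finset.sum_le_sum fun k _ => le_trans ?_ (hrow (fA k) (z ξ))).trans_eq
        (by simp [Finset.sum_const, nsmul_eq_mul])
      rw [← Finset.sum_image (f := fun j => ‖star (D (fA k) j) (z ξ)‖ ^ 2) fun a _ b _ h => hfB h]
      exact Finset.sum_le_sum_of_subset_of_nonneg (Finset.subset_univ _) fun _ _ _ => sq_nonneg _
    refine (add_le_add (mul_le_mul_of_nonneg_left hcol' (by positivity))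
      (mul_le_mul_of_nonneg_left hrow' (by positivity))).trans_eq ?_
    rw [inv_mul_cancel_left₀ (by positivity), inv_mul_cancel_left₀ (by positivity),
      mul_pow (Real.sqrt 2 * d * ‖z ξ‖), mul_pow (Real.sqrt 2 * d), mul_pow (Real.sqrt 2),
      Real.sq_sqrt (by norm_num)]
    ring
  let T : (ampN M n).toStarSubalgebra →L[ℂ] PiLp 2 (fun _ : Fin nA × Fin nB => Pr H) :=
    T0.mkContinuous (Real.sqrt 2 * d * ‖z ξ‖) hT0
  have hTn : ‖T‖ ≤ Real.sqrt 2 * d * ‖z ξ‖ := T0.mkContinuous_norm_le (by positivity) _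
  have hmem : ∀ (i : ι) (p : Fin nA × Fin nB),
      inj (fA p.1) ∘L (x i * z) ∘L pr (fB p.2) ∈ (ampN M n).toStarSubalgebra := by
    intro i p
    refine mem_ampN.2 fun a b => ?_
    have e : ent (inj (fA p.1) ∘L (x i * z) ∘L pr (fB p.2)) a b =
        if a = fA p.1 ∧ b = fB p.2 then x i * z else 0 := by
      ext v
      rw [ent_apply]
      simp only [ContinuousLinearMap.comp_apply, pr_inj, inj_apply]
      split_ifs <;> simp_all
    rw [e]
    split_ifs
    exacts [mul_mem (hx i) hzM, zero_mem M]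
  let fam : ι × (Fin nA × Fin nB) → (ampN M n).toStarSubalgebra := fun q => ⟨_, hmem q.1 q.2⟩
  have hgt := P104.Groth.little_grothendieck T (s ×ˢ Finset.univ) fam
  -- the left side
  have hval : ∀ (i : ι) (p : Fin nA × Fin nB),
      ‖offPart sb sa J ξ N (x i * z)‖ ^ 2 ≤ ‖T (fam (i, p))‖ ^ 2 := by
    intro i p
    rw [PiLp.norm_sq_eq_of_L2]
    refine le_trans (le_of_eq ?_) (Finset.single_le_sum
      (f := fun r => ‖T (fam (i, p)) r‖ ^ 2) (fun _ _ => sq_nonneg _) (Finset.mem_univ p))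
    simp only [T, T0, fam, LinearMap.mkContinuous_apply, LinearMap.coe_mk, AddHom.coe_mk]
    congr 3
    ext v
    simp [ent_apply, inj_apply, pr_inj,
      show ∀ v, z (z v) = z v from fun v => DFunLike.congr_fun hzs.isIdempotentElem.eq v]
  -- the right side
  have hsq : ∀ i (p : Fin nA × Fin nB),
      star (inj (fA p.1) ∘L (x i * z) ∘L pr (fB p.2)) * (inj (fA p.1) ∘L (x i * z) ∘L pr (fB p.2))
        = inj (fB p.2) ∘L (z * (star (x i) * x i)) ∘L pr (fB p.2) ∧
      (inj (fA p.1) ∘L (x i * z) ∘L pr (fB p.2)) * star (inj (fA p.1) ∘L (x i * z) ∘L pr (fB p.2))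
        = inj (fA p.1) ∘L (z * (x i * star (x i))) ∘L pr (fA p.1) := by
    intro i p
    have hstar : star (inj (fA p.1) ∘L (x i * z) ∘L pr (fB p.2)) =
        inj (fB p.2) ∘L star (x i * z) ∘L pr (fA p.1) := by
      simp [ContinuousLinearMap.star_eq_adjoint, ContinuousLinearMap.adjoint_comp, adjoint_pr,
        adjoint_inj, ContinuousLinearMap.comp_assoc]
    have hzx : x i * z = z * x i := VonNeumannAlgebra.mem_commutant_iff.1 hzM' _ (hx i)
    have hzx' : star (x i) * z = z * star (x i) :=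
      VonNeumannAlgebra.mem_commutant_iff.1 hzM' _ (star_mem (s := M) (hx i))
    have hzz : z * z = z := hzs.isIdempotentElem.eq
    have e1 : star (x i * z) * (x i * z) = z * (star (x i) * x i) := by
      rw [star_mul, hzs.isSelfAdjoint.star_eq, hzx, mul_assoc, ← mul_assoc (star (x i)) z, hzx',
        ← mul_assoc, ← mul_assoc, hzz, mul_assoc]
    have e2 : (x i * z) * star (x i * z) = z * (x i * star (x i)) := by
      rw [star_mul, hzs.isSelfAdjoint.star_eq, mul_assoc, ← mul_assoc z z, hzz, ← mul_assoc, hzx,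
        mul_assoc]
    rw [hstar]
    constructor
    · rw [← e1]; ext v j; simp [inj_apply, pr_apply]
    · rw [← e2]; ext v j; simp [inj_apply, pr_apply]
  have hcomb : ∀ (a b : Fin n) (Y : ι → H →L[ℂ] H),
      ∑ i ∈ s, inj a ∘L (z * Y i) ∘L pr b = inj a ∘L (z * ∑ i ∈ s, Y i) ∘L pr b := by
    intro a b Y
    ext v
    simp [map_sum]
  have hR1 : ‖∑ q ∈ s ×ˢ Finset.univ, star (fam q) * fam q‖ ≤
      nA * ‖z * ∑ i ∈ s, star (x i) * x i‖ := by
    have e : ((∑ q ∈ s ×ˢ Finset.univ, star (fam q) * fam q :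
        (ampN M n).toStarSubalgebra) : Amp H n →L[ℂ] Amp H n) =
        (nA : ℂ) • ∑ l, inj (fB l) ∘L (z * ∑ i ∈ s, star (x i) * x i) ∘L pr (fB l) := by
      rw [AddSubmonoidClass.coe_finsetSum, Finset.sum_product, Finset.sum_comm]
      simp only [fam, MulMemClass.coe_mul, StarMemClass.coe_star, hsq, hcomb,
        Fintype.sum_prod_type, Finset.sum_const, Finset.card_univ, Fintype.card_fin]
      exact (Nat.cast_smul_eq_nsmul ℂ nA _).symm
    show ‖((∑ q ∈ s ×ˢ Finset.univ, star (fam q) * fam q :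
        (ampN M n).toStarSubalgebra) : Amp H n →L[ℂ] Amp H n)‖ ≤ _
    rw [e, norm_smul, Complex.norm_natCast]
    exact mul_le_mul_of_nonneg_left (norm_sq_sum_diag_le fB hfB _) (Nat.cast_nonneg _)
  have hR2 : ‖∑ q ∈ s ×ˢ Finset.univ, fam q * star (fam q)‖ ≤
      nB * ‖z * ∑ i ∈ s, x i * star (x i)‖ := by
    have e : ((∑ q ∈ s ×ˢ Finset.univ, fam q * star (fam q) :
        (ampN M n).toStarSubalgebra) : Amp H n →L[ℂ] Amp H n) =
        (nB : ℂ) • ∑ k, inj (fA k) ∘L (z * ∑ i ∈ s, x i * star (x i)) ∘L pr (fA k) := by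
      rw [AddSubmonoidClass.coe_finsetSum, Finset.sum_product, Finset.sum_comm]
      simp only [fam, MulMemClass.coe_mul, StarMemClass.coe_star, hsq, hcomb,
        Fintype.sum_prod_type, Finset.sum_const, Finset.card_univ, Fintype.card_fin,
        Finset.smul_sum, Nat.cast_smul_eq_nsmul]
    show ‖((∑ q ∈ s ×ˢ Finset.univ, fam q * star (fam q) :
        (ampN M n).toStarSubalgebra) : Amp H n →L[ℂ] Amp H n)‖ ≤ _
    rw [e, norm_smul, Complex.norm_natCast]
    exact mul_le_mul_of_nonneg_left (norm_sq_sum_diag_le fA hfA _) (Nat.cast_nonneg _)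
  have hL : (nA * nB : ℝ) * ∑ i ∈ s, ‖offPart sb sa J ξ N (x i * z)‖ ^ 2 ≤
      ∑ q ∈ s ×ˢ Finset.univ, ‖T (fam q)‖ ^ 2 := by
    rw [Finset.sum_product, Finset.mul_sum]
    refine Finset.sum_le_sum fun i _ => le_trans (le_of_eq ?_) (Finset.sum_le_sum fun p _ => hval i p)
    simp [Finset.sum_const, Fintype.card_prod]
  have h2 : ‖T‖ ^ 2 ≤ 2 * d ^ 2 * ‖z ξ‖ ^ 2 := by
    refine (pow_le_pow_left₀ T.opNorm_nonneg hTn 2).trans_eq ?_
    rw [mul_pow, mul_pow, Real.sq_sqrt (by norm_num)]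
  have hfin := hL.trans (hgt.trans (mul_le_mul h2 (add_le_add hR1 hR2) (by positivity)
    (by positivity)))
  refine le_of_mul_le_mul_left (hfin.trans_eq ?_) (show (0 : ℝ) < nA * nB by positivity)
  field_simp

end Vale.Agent.P096.AT.Scale
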